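import Mathlib

/-!
# P227, block LIM: from the push-forward identity to the pointwise Jacobian equation

`E` is any finite-dimensional real inner product space.  If `G : E → E` is `C¹` with
`a‖v‖² ≤ ⟪G' y v, v⟫`, `a > 0`, then `G` is a bijection with `a‖y-y'‖ ≤ ‖G y - G y'‖`, and if
`∫ g (G y) * f y = ∫ g x * ρ x` for all continuous compactly supported `g` (`f`, `ρ` continuous)
then `f y = ρ (G y) * |det (G' y)|` for ALL `y`.
-/

open MeasureTheory Set Filter Topology
open scoped RealInnerProductSpace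

namespace Vale.Agent.P227.M.LIM

section Mono

variable {E : Type*} [NormedAddCommGroup E] [InnerProductSpace ℝ E]

/-- Strong monotonicity along segments. -/
theorem mono716 {G : E → E} {G' : E → E →L[ℝ] E} (hG : ∀ y, HasFDerivAt G (G' y) y)
    {a : ℝ} (hco : ∀ y v : E, a * ‖v‖ ^ 2 ≤ ⟪G' y v, v⟫) (x y : E) :
    a * ‖x - y‖ ^ 2 ≤ ⟪G x - G y, x - y⟫ := by
  have hder : ∀ t : ℝ, HasDerivAt (fun t : ℝ => ⟪G (y + t • (x - y)), x - y⟫)
      ⟪G' (y + t • (x - y)) (x - y), x - y⟫ t := by
    intro t
    have h1 : HasDerivAt (fun t : ℝ => y + t • (x - y)) (x - y) t := by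
      have := ((hasDerivAt_id t).smul_const (x - y)).const_add y
      simpa using this
    have h2 : HasDerivAt (fun t : ℝ => G (y + t • (x - y))) (G' (y + t • (x - y)) (x - y)) t :=
      (hG _).comp_hasDerivAt t h1
    have h3 := h2.inner ℝ (hasDerivAt_const t (x - y))
    simpa using h3
  obtain ⟨c, -, hc⟩ := exists_hasDerivAt_eq_slope
    (fun t : ℝ => ⟪G (y + t • (x - y)), x - y⟫)
    (fun t : ℝ => ⟪G' (y + t • (x - y)) (x - y), x - y⟫) zero_lt_one
    (fun t _ => (hder t).continuousAt.continuousWithinAt) (fun t _ => hder t)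
  have h4 := hco (y + c • (x - y)) (x - y)
  rw [hc] at h4
  simpa [inner_sub_left] using h4

theorem expand716 {G : E → E} {G' : E → E →L[ℝ] E} (hG : ∀ y, HasFDerivAt G (G' y) y)
    {a : ℝ} (hco : ∀ y v : E, a * ‖v‖ ^ 2 ≤ ⟪G' y v, v⟫) (x y : E) :
    a * ‖x - y‖ ≤ ‖G x - G y‖ := by
  rcases eq_or_ne x y with rfl | hne
  · simp
  · have hpos : 0 < ‖x - y‖ := norm_pos_iff.2 (sub_ne_zero.2 hne)
    have h1 := mono716 hG hco x y
    have h2 := real_inner_le_norm (G x - G y) (x - y)
    have h3 : (a * ‖x - y‖) * ‖x - y‖ ≤ ‖G x - G y‖ * ‖x - y‖ := by nlinarith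
    exact le_of_mul_le_mul_right h3 hpos

theorem injective716 {G : E → E} {G' : E → E →L[ℝ] E} (hG : ∀ y, HasFDerivAt G (G' y) y)
    {a : ℝ} (ha : 0 < a) (hco : ∀ y v : E, a * ‖v‖ ^ 2 ≤ ⟪G' y v, v⟫) :
    Function.Injective G := by
  intro x y h
  have h1 := expand716 hG hco x y
  rw [h, sub_self, norm_zero] at h1
  have h2 : ‖x - y‖ ≤ 0 := by
    by_contra hcon
    push Not at hcon
    have := mul_pos ha hcon
    linarith
  exact sub_eq_zero.1 (norm_le_zero_iff.1 h2)

variable [FiniteDimensional ℝ E]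

theorem surjective716 {G : E → E} {G' : E → E →L[ℝ] E} (hG : ∀ y, HasFDerivAt G (G' y) y)
    (hG' : Continuous G') {a : ℝ} (ha : 0 < a)
    (hco : ∀ y v : E, a * ‖v‖ ^ 2 ≤ ⟪G' y v, v⟫) :
    Function.Surjective G ∧ IsOpenMap G := by
  have : CompleteSpace E := FiniteDimensional.complete ℝ E
  have hcont : Continuous G := continuous_iff_continuousAt.2 fun y => (hG y).continuousAt
  have hopen : IsOpenMap G := by
    refine isOpenMap_iff_nhds_le.2 fun y => ?_
    have hs : HasStrictFDerivAt G (G' y) y :=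
      hasStrictFDerivAt_of_hasFDerivAt_of_continuousAt (Eventually.of_forall hG)
        hG'.continuousAt
    have hinj : Function.Injective (G' y : E →ₗ[ℝ] E) := by
      refine (injective_iff_map_eq_zero _).2 fun v hv => ?_
      have h1 := hco y v
      have h2 : G' y v = 0 := hv
      rw [h2, inner_zero_left] at h1
      have h3 : ‖v‖ ^ 2 ≤ 0 := by
        by_contra hcon
        push Not at hcon
        have := mul_pos ha hcon
        linarith
      have h4 : ‖v‖ = 0 := by
        have : ‖v‖ ^ 2 = 0 := le_antisymm h3 (by positivity)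
        simpa using this
      exact norm_eq_zero.1 h4
    have hsur : Function.Surjective (G' y : E →ₗ[ℝ] E) :=
      LinearMap.injective_iff_surjective.1 hinj
    exact (hs.map_nhds_eq_of_surj (LinearMap.range_eq_top.2 hsur)).ge
  refine ⟨?_, hopen⟩
  have hclosed : IsClosed (range G) := by
    refine IsSeqClosed.isClosed ?_
    intro z z₀ hz hlim
    choose y hy using hz
    have hcz : CauchySeq z := hlim.cauchySeq
    have hcy : CauchySeq y := by
      rw [Metric.cauchySeq_iff] at hcz ⊢
      intro ε hε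
      obtain ⟨N, hN⟩ := hcz (a * ε) (mul_pos ha hε)
      refine ⟨N, fun m hm n hn => ?_⟩
      have h1 := hN m hm n hn
      have h2 := expand716 hG hco (y m) (y n)
      rw [hy, hy] at h2
      rw [dist_eq_norm] at h1 ⊢
      exact lt_of_mul_lt_mul_left (lt_of_le_of_lt h2 h1) ha.le
    obtain ⟨y₀, hy₀⟩ := cauchySeq_tendsto_of_complete hcy
    refine ⟨y₀, ?_⟩
    have h3 : Tendsto (fun n => G (y n)) atTop (𝓝 (G y₀)) := (hcont.tendsto y₀).comp hy₀
    have h4 : (fun n => G (y n)) = z := funext hy
    rw [h4] at h3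
    exact tendsto_nhds_unique h3 hlim
  have hclopen : IsClopen (range G) := ⟨hclosed, hopen.isOpen_range⟩
  have huniv : range G = univ := by
    refine hclopen.eq_univ (range_nonempty G)
  exact range_eq_univ.1 huniv

end Mono

section CV

variable {E : Type*} [NormedAddCommGroup E] [InnerProductSpace ℝ E] [FiniteDimensional ℝ E]
  [MeasurableSpace E] [BorelSpace E]

/-- Global change of variables for a strongly monotone `C¹` map. -/
theorem integral_cv716 {G : E → E} {G' : E → E →L[ℝ] E} (hG : ∀ y, HasFDerivAt G (G' y) y)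
    (hG' : Continuous G') {a : ℝ} (ha : 0 < a)
    (hco : ∀ y v : E, a * ‖v‖ ^ 2 ≤ ⟪G' y v, v⟫) (h : E → ℝ) :
    ∫ x, h x = ∫ y, |(G' y).det| * h (G y) := by
  have hsur := (surjective716 hG hG' ha hco).1
  have hinj := injective716 hG ha hco
  have h1 := integral_image_eq_integral_abs_det_fderiv_smul (volume : Measure E)
    (MeasurableSet.univ (α := E)) (fun y _ => (hG y).hasFDerivWithinAt) (hinj.injOn (s := univ)) h
  rw [image_univ, hsur.range_eq, Measure.restrict_univ] at h1
  simpa [smul_eq_mul] using h1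

/-- **(MA)** Push-forward identity against `C_c` test functions implies the pointwise Jacobian
equation. -/
theorem ma716 {G : E → E} {G' : E → E →L[ℝ] E} (hG : ∀ y, HasFDerivAt G (G' y) y)
    (hG' : Continuous G') {a : ℝ} (ha : 0 < a)
    (hco : ∀ y v : E, a * ‖v‖ ^ 2 ≤ ⟪G' y v, v⟫)
    {f ρ : E → ℝ} (hf : Continuous f) (hρ : Continuous ρ)
    (hpush : ∀ g : E → ℝ, Continuous g → HasCompactSupport g →
      ∫ y, g (G y) * f y = ∫ x, g x * ρ x) :
    Function.Bijective G ∧ (∀ y y', ‖y - y'‖ ≤ a⁻¹ * ‖G y - G y'‖) ∧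
      ∀ y, f y = ρ (G y) * |(G' y).det| := by
  have hcont : Continuous G := continuous_iff_continuousAt.2 fun y => (hG y).continuousAt
  obtain ⟨hsur, hopen⟩ := surjective716 hG hG' ha hco
  have hinj := injective716 hG ha hco
  refine ⟨⟨hinj, hsur⟩, fun y y' => ?_, ?_⟩
  · have h1 := expand716 hG hco y y'
    rw [inv_mul_eq_div, le_div_iff₀ ha]
    linarith
  -- the homeomorphism
  let e : E ≃ₜ E := (Equiv.ofBijective G ⟨hinj, hsur⟩).toHomeomorphOfContinuousOpen hcont hopen
  have he : ∀ y, e y = G y := fun y => rfl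
  have hdet : Continuous fun y => |(G' y).det| :=
    (ContinuousLinearMap.continuous_det.comp hG').abs
  have hr : Continuous fun y => ρ (G y) * |(G' y).det| := (hρ.comp hcont).mul hdet
  have hae : ∀ᵐ y ∂(volume : Measure E), f y = ρ (G y) * |(G' y).det| := by
    refine ae_eq_of_integral_contDiff_smul_eq hf.locallyIntegrable hr.locallyIntegrable ?_
    intro ψ hψ hψs
    have hg1 : Continuous (fun x => ψ (e.symm x)) := hψ.continuous.comp e.symm.continuous
    have hg2 : HasCompactSupport (fun x => ψ (e.symm x)) := hψs.comp_homeomorph e.symm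
    have h1 := hpush _ hg1 hg2
    have h2 := integral_cv716 hG hG' ha hco (fun x => ψ (e.symm x) * ρ x)
    have h3 : ∀ y, e.symm (G y) = y := fun y => e.symm_apply_apply y
    simp only [h3] at h1 h2
    simp only [smul_eq_mul]
    rw [h1, h2]
    refine integral_congr_ae (Eventually.of_forall fun y => ?_)
    simp only
    ring
  have heq : f = fun y => ρ (G y) * |(G' y).det| :=
    (Continuous.ae_eq_iff_eq (volume : Measure E) hf hr).1 hae
  intro y
  exact congrFun heq y

end CV

end Vale.Agent.P227.M.LIM
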