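import Mathlib

/-!
P227, block LIM: the gradient map of a uniformly convex function is a `C^1` diffeomorphism;
pointwise Monge-Ampere equation from the push forward identity (helper940).
-/

namespace Vale.Agent.P227.M.LIM

open MeasureTheory Set Filter Topology
open scoped NNReal RealInnerProductSpace ContDiff

noncomputable section

set_option linter.unusedSectionVars false
set_option linter.unusedVariables false

variable {E : Type*} [NormedAddCommGroup E] [InnerProductSpace ℝ E] [FiniteDimensional ℝ E]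

/-- a coercive linear map has positive determinant -/
theorem det_pos_of_coercive {a : ℝ} (ha : 0 < a) (D : E →L[ℝ] E)
    (h : ∀ v, a * ‖v‖ ^ 2 ≤ ⟪D v, v⟫) : 0 < D.det := by
  obtain ⟨f, hf⟩ : ∃ f : ℝ → ℝ, f = fun t =>
      (t • (ContinuousLinearMap.id ℝ E) + (1 - t) • D).det := ⟨_, rfl⟩
  have hcont : Continuous f := by
    rw [hf]
    exact ContinuousLinearMap.continuous_det.comp (by fun_prop)
  have hne : ∀ t ∈ Icc (0 : ℝ) 1, f t ≠ 0 := by
    intro t ht h0
    rw [hf] at h0
    obtain ⟨v, hv, hv0⟩ : ∃ v : E, v ∈ LinearMap.ker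
        ((t • (ContinuousLinearMap.id ℝ E) + (1 - t) • D : E →L[ℝ] E) : E →ₗ[ℝ] E) ∧ v ≠ 0 := by
      have h1 := LinearMap.bot_lt_ker_of_det_eq_zero h0
      exact (Submodule.ne_bot_iff _).1 h1.ne'
    have h2 : t • v + (1 - t) • D v = 0 := by
      simpa using hv
    have h3 : t * ‖v‖ ^ 2 + (1 - t) * ⟪D v, v⟫ = 0 := by
      have h4 : ⟪t • v + (1 - t) • D v, v⟫ = 0 := by
        rw [h2, inner_zero_left]
      rwa [inner_add_left, real_inner_smul_left, real_inner_smul_left,
        real_inner_self_eq_norm_sq] at h4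
    have h5 : 0 < ‖v‖ ^ 2 := by positivity
    have h6 := h v
    have h7 : (1 - t) * (a * ‖v‖ ^ 2) ≤ (1 - t) * ⟪D v, v⟫ :=
      mul_le_mul_of_nonneg_left h6 (by linarith [ht.2])
    have h8 : 0 < t + (1 - t) * a := by
      rcases eq_or_lt_of_le ht.1 with h | h
      · rw [← h]
        linarith
      · have : 0 ≤ (1 - t) * a := mul_nonneg (by linarith [ht.2]) ha.le
        linarith
    have h9 : 0 < (t + (1 - t) * a) * ‖v‖ ^ 2 := mul_pos h8 h5
    nlinarith
  have h1 : f 1 = 1 := by
    rw [hf]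
    simp [ContinuousLinearMap.det]
  have h0 : f 0 = D.det := by
    rw [hf]
    simp [ContinuousLinearMap.det]
  rw [← h0]
  by_contra hle
  push Not at hle
  have h2 : (0 : ℝ) ∈ Icc (f 0) (f 1) := ⟨hle, by rw [h1]; exact zero_le_one⟩
  obtain ⟨t, ht, ht0⟩ := intermediate_value_Icc zero_le_one hcont.continuousOn h2
  exact hne t ht ht0

section Map

variable {a : ℝ} {g : E → E}

theorem norm_le_of_mono (ha : 0 < a) (hm : ∀ x y, a * ‖x - y‖ ^ 2 ≤ ⟪g x - g y, x - y⟫) (x y : E) :
    a * ‖x - y‖ ≤ ‖g x - g y‖ := by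
  rcases eq_or_ne x y with h | h
  · simp [h]
  have h1 : 0 < ‖x - y‖ := norm_pos_iff.2 (sub_ne_zero.2 h)
  have h2 := (hm x y).trans (real_inner_le_norm _ _)
  have h3 : (a * ‖x - y‖) * ‖x - y‖ ≤ ‖g x - g y‖ * ‖x - y‖ := by nlinarith
  exact le_of_mul_le_mul_right h3 h1

theorem injective_of_mono (ha : 0 < a) (hm : ∀ x y, a * ‖x - y‖ ^ 2 ≤ ⟪g x - g y, x - y⟫) :
    Function.Injective g := by
  intro x y h
  have h1 := norm_le_of_mono ha hm x y
  rw [h, sub_self, norm_zero] at h1
  have h2 : ‖x - y‖ ≤ 0 := by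
    by_contra h3
    push Not at h3
    have := mul_pos ha h3
    linarith
  exact sub_eq_zero.1 (norm_le_zero_iff.1 h2)

theorem antilipschitz_of_mono (ha : 0 < a)
    (hm : ∀ x y, a * ‖x - y‖ ^ 2 ≤ ⟪g x - g y, x - y⟫) :
    AntilipschitzWith (Real.toNNReal a⁻¹) g := by
  refine AntilipschitzWith.of_le_mul_dist fun x y => ?_
  rw [dist_eq_norm, dist_eq_norm, Real.coe_toNNReal _ (by positivity)]
  have h1 := norm_le_of_mono ha hm x y
  rw [inv_mul_eq_div, le_div_iff₀ ha, mul_comm]
  exact h1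

theorem fderiv_coercive_of_mono (hg : Differentiable ℝ g)
    (hm : ∀ x y, a * ‖x - y‖ ^ 2 ≤ ⟪g x - g y, x - y⟫) (x v : E) :
    a * ‖v‖ ^ 2 ≤ ⟪fderiv ℝ g x v, v⟫ := by
  have h1 : HasDerivAt (fun t : ℝ => g (x + t • v)) (fderiv ℝ g x v) 0 := by
    have h2 : HasDerivAt (fun t : ℝ => x + t • v) v 0 := by
      simpa using ((hasDerivAt_id (0 : ℝ)).smul_const v).const_add x
    have h3 : HasFDerivAt g (fderiv ℝ g x) (x + (0 : ℝ) • v) := by
      simpa using (hg x).hasFDerivAt
    exact h3.comp_hasDerivAt 0 h2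
  have h4 : HasDerivAt (fun t : ℝ => ⟪g (x + t • v), v⟫) ⟪fderiv ℝ g x v, v⟫ 0 := by
    have := h1.inner ℝ (hasDerivAt_const (0 : ℝ) v)
    simpa using this
  have h5 := h4.tendsto_slope_zero_right
  refine ge_of_tendsto h5 ?_
  filter_upwards [self_mem_nhdsWithin] with t ht
  have ht' : (0 : ℝ) < t := ht
  have h6 := hm (x + t • v) x
  rw [add_sub_cancel_left, norm_smul, Real.norm_eq_abs, abs_of_pos ht', real_inner_smul_right,
    inner_sub_left] at h6
  have h7 : a * ‖v‖ ^ 2 * t ≤ ⟪g (x + t • v), v⟫ - ⟪g x, v⟫ := by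
    have : t * (a * ‖v‖ ^ 2 * t) ≤ t * (⟪g (x + t • v), v⟫ - ⟪g x, v⟫) := by nlinarith
    exact le_of_mul_le_mul_left this ht'
  simp only [zero_add, zero_smul, add_zero, smul_eq_mul]
  rw [inv_mul_eq_div, le_div_iff₀ ht']
  exact h7

theorem det_pos_of_mono (ha : 0 < a) (hg : Differentiable ℝ g)
    (hm : ∀ x y, a * ‖x - y‖ ^ 2 ≤ ⟪g x - g y, x - y⟫) (x : E) : 0 < (fderiv ℝ g x).det :=
  det_pos_of_coercive ha _ (fderiv_coercive_of_mono hg hm x)

theorem surjective_of_mono (ha : 0 < a) (hg : ContDiff ℝ 1 g)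
    (hm : ∀ x y, a * ‖x - y‖ ^ 2 ≤ ⟪g x - g y, x - y⟫) : Function.Surjective g := by
  have hd : Differentiable ℝ g := hg.differentiable (by norm_num)
  have hopen : IsOpenMap g := by
    have h1 : ∀ x, ∃ e : E ≃L[ℝ] E, (e : E →L[ℝ] E) = fderiv ℝ g x := fun x => by
      have h2 : (fderiv ℝ g x).det ≠ 0 := (det_pos_of_mono ha hd hm x).ne'
      exact ⟨(fderiv ℝ g x).toContinuousLinearEquivOfDetNeZero h2,
        ContinuousLinearMap.coe_toContinuousLinearEquivOfDetNeZero _ h2⟩
    choose e he using h1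
    refine isOpenMap_of_hasStrictFDerivAt_equiv (f' := e) fun x => ?_
    rw [he]
    exact hg.contDiffAt.hasStrictFDerivAt (by norm_num)
  have hclosed : IsClosedMap g := by
    have h1 := (antilipschitz_of_mono ha hm).tendsto_cobounded
    rw [Metric.cobounded_eq_cocompact] at h1
    exact (isProperMap_iff_tendsto_cocompact.2 ⟨hg.continuous, h1⟩).isClosedMap
  have h2 : IsClopen (range g) := ⟨by
    rw [← image_univ]
    exact hclosed _ isClosed_univ, hopen.isOpen_range⟩
  have h3 : range g = univ := h2.eq_univ ⟨g 0, mem_range_self 0⟩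
  exact range_eq_univ.1 h3

variable [MeasurableSpace E] [BorelSpace E]

/-- change of variables for the whole space -/
theorem integral_comp_mul_det (ha : 0 < a) (hg : ContDiff ℝ 1 g)
    (hm : ∀ x y, a * ‖x - y‖ ^ 2 ≤ ⟪g x - g y, x - y⟫) (F : E → ℝ) :
    ∫ x, F x = ∫ y, F (g y) * (fderiv ℝ g y).det := by
  have hd : Differentiable ℝ g := hg.differentiable (by norm_num)
  have h1 := integral_image_eq_integral_abs_det_fderiv_smul (volume : Measure E)
    (s := univ) MeasurableSet.univ (f' := fderiv ℝ g)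
    (fun x _ => (hd x).hasFDerivAt.hasFDerivWithinAt)
    (injective_of_mono ha hm).injOn F
  rw [image_univ, (surjective_of_mono ha hg hm).range_eq, Measure.restrict_univ] at h1
  rw [h1]
  refine integral_congr_ae (Eventually.of_forall fun y => ?_)
  simp only [smul_eq_mul]
  rw [abs_of_pos (det_pos_of_mono ha hd hm y), mul_comm]

/-- pointwise Monge-Ampere equation from the push forward identity, tested on Lipschitz functions
with compact support -/
theorem eq_mul_det_of_integral (ha : 0 < a) (hg : ContDiff ℝ 1 g)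
    (hm : ∀ x y, a * ‖x - y‖ ^ 2 ≤ ⟪g x - g y, x - y⟫) {f h : E → ℝ} (hf : Continuous f)
    (hh : Continuous h)
    (H : ∀ F : E → ℝ, (∃ K, LipschitzWith K F) → HasCompactSupport F →
      ∫ y, F (g y) * f y = ∫ x, F x * h x) (y : E) :
    f y = h (g y) * (fderiv ℝ g y).det := by
  have hd : Differentiable ℝ g := hg.differentiable (by norm_num)
  have hinj := injective_of_mono ha hm
  have hsur := surjective_of_mono ha hg hm
  obtain ⟨gi, hgi⟩ : ∃ gi : E → E, ∀ x, g (gi x) = x := ⟨fun x => (hsur x).choose,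
    fun x => (hsur x).choose_spec⟩
  have hgi' : ∀ y, gi (g y) = y := fun y => hinj (hgi _)
  have hlip : LipschitzWith (Real.toNNReal a⁻¹) gi := by
    refine LipschitzWith.of_dist_le_mul fun x y => ?_
    have h1 := (antilipschitz_of_mono ha hm).le_mul_dist (gi x) (gi y)
    rwa [hgi, hgi] at h1
  have hdet : Continuous fun y => (fderiv ℝ g y).det :=
    ContinuousLinearMap.continuous_det.comp (hg.continuous_fderiv (by norm_num))
  obtain ⟨u, hu⟩ : ∃ u : E → ℝ, u = fun y => f y - h (g y) * (fderiv ℝ g y).det := ⟨_, rfl⟩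
  have hucont : Continuous u := by
    rw [hu]
    exact hf.sub ((hh.comp hg.continuous).mul hdet)
  have key : ∀ G : E → ℝ, ContDiff ℝ ∞ G → HasCompactSupport G → ∫ y, G y • u y = 0 := by
    intro G hG hGc
    obtain ⟨K, hK⟩ := hG.lipschitzWith_of_hasCompactSupport hGc (by simp)
    have hFc : HasCompactSupport (fun x => G (gi x)) := by
      refine HasCompactSupport.intro (K := g '' tsupport G) ?_ fun x hx => ?_
      · exact hGc.isCompact.image hg.continuous
      · by_contra h0
        exact hx ⟨gi x, subset_tsupport _ h0, hgi x⟩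
    have h1 := H (fun x => G (gi x)) ⟨_, hK.comp hlip⟩ hFc
    have h2 := integral_comp_mul_det ha hg hm (fun x => G (gi x) * h x)
    rw [h2] at h1
    simp only [hgi'] at h1
    have h3 : Integrable fun y => G y * f y :=
      (hG.continuous.mul hf).integrable_of_hasCompactSupport hGc.mul_right
    have h4 : Integrable fun y => G y * h (g y) * (fderiv ℝ g y).det :=
      ((hG.continuous.mul (hh.comp hg.continuous)).mul hdet).integrable_of_hasCompactSupport
        (hGc.mul_right).mul_right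
    have h5 : ∀ y, G y • u y = G y * f y - G y * h (g y) * (fderiv ℝ g y).det := fun y => by
      rw [hu, smul_eq_mul]
      ring
    simp_rw [h5]
    rw [integral_sub h3 h4, h1, sub_self]
  have h0 : ∀ᵐ y, u y = 0 :=
    ae_eq_zero_of_integral_contDiff_smul_eq_zero hucont.locallyIntegrable key
  have h1 : u = fun _ => 0 := Continuous.ae_eq_iff_eq (μ := (volume : Measure E)) hucont
    continuous_const |>.1 h0
  have h2 := congrFun h1 y
  rw [hu] at h2
  linarith

end Map

end

end Vale.Agent.P227.M.LIM
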