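import Mathlib

/-!
# P227, block LIM: compactness (Arzela-Ascoli) for potentials with `C^{2,1}` bounds
-/

open Filter Topology Set Metric

namespace Vale.Agent.P227.M.LIM

/-- Sequential compactness for maps that are Lipschitz on balls uniformly in the index and
bounded at `0`. -/
theorem exists_subseq_of_lip {E F : Type*} [NormedAddCommGroup E] [ProperSpace E]
    [NormedAddCommGroup F] [ProperSpace F]
    (f : ℕ → E → F) (K : ℝ → ℝ)
    (hK : ∀ R k x y, ‖x‖ ≤ R → ‖y‖ ≤ R → ‖f k x - f k y‖ ≤ K R * ‖x - y‖)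
    (C : ℝ) (hC : ∀ k, ‖f k 0‖ ≤ C) :
    ∃ (ns : ℕ → ℕ) (f' : E → F), StrictMono ns ∧
      (∀ x, Tendsto (fun j => f (ns j) x) atTop (𝓝 (f' x))) ∧
      TendstoLocallyUniformly (fun j => f (ns j)) f' atTop := by
  classical
  -- extraction along a dense sequence
  let d : ℕ → E := TopologicalSpace.denseSeq E
  have hd : DenseRange d := TopologicalSpace.denseRange_denseSeq E
  let r : ℕ → ℝ := fun i => C + K ‖d i‖ * ‖d i‖
  have hbd : ∀ k i, ‖f k (d i)‖ ≤ r i := by
    intro k i
    have h1 : ‖f k (d i) - f k 0‖ ≤ K ‖d i‖ * ‖d i - 0‖ :=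
      hK ‖d i‖ k (d i) 0 le_rfl (by simp)
    rw [sub_zero] at h1
    have h2 : ‖f k (d i)‖ ≤ ‖f k (d i) - f k 0‖ + ‖f k 0‖ := by
      simpa using norm_add_le (f k (d i) - f k 0) (f k 0)
    have h3 := hC k
    simp only [r]
    linarith
  have hcomp : IsCompact (Set.univ.pi fun i => closedBall (0 : F) (r i)) :=
    isCompact_univ_pi fun i => isCompact_closedBall _ _
  obtain ⟨a, -, ns, hns, hlim⟩ := hcomp.tendsto_subseq
    (x := fun k i => f k (d i)) (fun k => by
      intro i _
      simpa using hbd k i)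
  have hlim' : ∀ i, Tendsto (fun j => f (ns j) (d i)) atTop (𝓝 (a i)) := by
    intro i
    exact (tendsto_pi_nhds.1 hlim) i
  -- Cauchy everywhere
  have hcauchy : ∀ x, CauchySeq (fun j => f (ns j) x) := by
    intro x
    rw [Metric.cauchySeq_iff']
    intro ε hε
    set L : ℝ := |K (‖x‖ + 1)| + 1 with hL
    have hLpos : 0 < L := by positivity
    obtain ⟨i, hy0⟩ := hd.exists_dist_lt x (show 0 < min 1 (ε / (4 * L)) by positivity)
    have hy : dist (d i) x < min 1 (ε / (4 * L)) := by rwa [dist_comm]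
    have hy1 : dist (d i) x < 1 := lt_of_lt_of_le hy (min_le_left _ _)
    have hy2 : dist (d i) x < ε / (4 * L) := lt_of_lt_of_le hy (min_le_right _ _)
    have hdi : ‖d i‖ ≤ ‖x‖ + 1 := by
      have : ‖d i‖ ≤ ‖d i - x‖ + ‖x‖ := by simpa using norm_add_le (d i - x) x
      rw [dist_eq_norm] at hy1
      linarith
    have hx1 : ‖x‖ ≤ ‖x‖ + 1 := by linarith
    have hlip : ∀ k, ‖f k x - f k (d i)‖ ≤ ε / 4 := by
      intro k
      have h1 := hK (‖x‖ + 1) k x (d i) hx1 hdi
      rw [dist_eq_norm, norm_sub_rev] at hy2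
      have h2 : K (‖x‖ + 1) * ‖x - d i‖ ≤ L * ‖x - d i‖ := by
        apply mul_le_mul_of_nonneg_right _ (norm_nonneg _)
        rw [hL]
        linarith [le_abs_self (K (‖x‖ + 1))]
      have h3 : L * ‖x - d i‖ ≤ L * (ε / (4 * L)) :=
        mul_le_mul_of_nonneg_left hy2.le hLpos.le
      have h4 : L * (ε / (4 * L)) = ε / 4 := by field_simp
      linarith
    have hc := (hlim' i).cauchySeq
    rw [Metric.cauchySeq_iff'] at hc
    obtain ⟨N, hN⟩ := hc (ε / 4) (by positivity)
    refine ⟨N, fun n hn => ?_⟩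
    have h1 := hN n hn
    rw [dist_eq_norm] at h1 ⊢
    have h2 := hlip (ns n)
    have h3 := hlip (ns N)
    have h4 : f (ns n) x - f (ns N) x
        = (f (ns n) x - f (ns n) (d i)) + (f (ns n) (d i) - f (ns N) (d i))
          - (f (ns N) x - f (ns N) (d i)) := by abel
    rw [h4]
    have h5 := norm_sub_le ((f (ns n) x - f (ns n) (d i)) + (f (ns n) (d i) - f (ns N) (d i)))
      (f (ns N) x - f (ns N) (d i))
    have h6 := norm_add_le (f (ns n) x - f (ns n) (d i)) (f (ns n) (d i) - f (ns N) (d i))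
    linarith
  choose f' hf' using fun x => cauchySeq_tendsto_of_complete (hcauchy x)
  refine ⟨ns, f', hns, hf', ?_⟩
  -- locally uniform convergence
  have hloc : ∀ S : Set E, IsCompact S → TendstoUniformlyOn (fun j => f (ns j)) f' atTop S := by
    intro S hS
    have hequi : ∀ S ∈ {S : Set E | IsCompact S}, EquicontinuousOn (fun j => f (ns j)) S := by
      intro S hS
      obtain ⟨R, hR⟩ := (IsCompact.isBounded hS).subset_closedBall (0 : E)
      have hl : ∀ j, LipschitzOnWith (Real.toNNReal (K R)) (f (ns j)) S := by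
        intro j
        apply LipschitzOnWith.of_dist_le_mul
        intro x hx y hy
        rw [dist_eq_norm, dist_eq_norm]
        have hx' := hR hx
        have hy' := hR hy
        rw [mem_closedBall_zero_iff] at hx' hy'
        refine (hK R (ns j) x y hx' hy').trans ?_
        exact mul_le_mul_of_nonneg_right (Real.le_coe_toNNReal _) (norm_nonneg _)
      exact (LipschitzOnWith.uniformEquicontinuousOn _ _ hl).equicontinuousOn
    have hcov : ⋃₀ {S : Set E | IsCompact S} = univ := by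
      rw [eq_univ_iff_forall]
      intro x
      exact ⟨{x}, isCompact_singleton, rfl⟩
    have h := (EquicontinuousOn.tendsto_uniformOnFun_iff_pi (𝔖 := {S : Set E | IsCompact S})
      (fun S hS => hS) hcov hequi atTop f').2 (tendsto_pi_nhds.2 hf')
    rw [UniformOnFun.tendsto_iff_tendstoUniformlyOn] at h
    exact h S hS
  rw [tendstoLocallyUniformly_iff_forall_isCompact]
  exact hloc

/-- Compactness of potentials with locally bounded gradients and Hessians and uniformly
Lipschitz Hessians; gradients and Hessians pass to the limit. -/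
theorem exists_subseq_C2 {E : Type*} [NormedAddCommGroup E] [InnerProductSpace ℝ E]
    [FiniteDimensional ℝ E]
    (φ : ℕ → E → ℝ) (g : ℕ → E → E) (T : ℕ → E → E →L[ℝ] E)
    (hφ : ∀ k x, HasGradientAt (φ k) (g k x) x)
    (hg : ∀ k x, HasFDerivAt (g k) (T k x) x)
    (C C' B M : ℝ) (h0 : ∀ k, |φ k 0| ≤ C) (hg0 : ∀ k, ‖g k 0‖ ≤ C') (hT0 : ∀ k, ‖T k 0‖ ≤ B)
    (hM : ∀ k x y, ‖T k x - T k y‖ ≤ M * ‖x - y‖) :
    ∃ (ns : ℕ → ℕ) (φ' : E → ℝ) (g' : E → E) (T' : E → E →L[ℝ] E), StrictMono ns ∧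
      (∀ x, Tendsto (fun j => φ (ns j) x) atTop (𝓝 (φ' x))) ∧
      (∀ x, Tendsto (fun j => g (ns j) x) atTop (𝓝 (g' x))) ∧
      (∀ x, Tendsto (fun j => T (ns j) x) atTop (𝓝 (T' x))) ∧
      TendstoLocallyUniformly (fun j => φ (ns j)) φ' atTop ∧
      TendstoLocallyUniformly (fun j => g (ns j)) g' atTop ∧
      TendstoLocallyUniformly (fun j => T (ns j)) T' atTop ∧
      (∀ x, HasGradientAt φ' (g' x) x) ∧
      (∀ x, HasFDerivAt g' (T' x) x) ∧
      (∀ x y, ‖T' x - T' y‖ ≤ M * ‖x - y‖) := by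
  -- a priori bounds on balls
  have hTb : ∀ R k x, ‖x‖ ≤ R → ‖T k x‖ ≤ B + |M| * R := by
    intro R k x hx
    have h1 := hM k x 0
    rw [sub_zero] at h1
    have h2 : ‖T k x‖ ≤ ‖T k x - T k 0‖ + ‖T k 0‖ := by
      simpa using norm_add_le (T k x - T k 0) (T k 0)
    have h3 : M * ‖x‖ ≤ |M| * R := by
      calc M * ‖x‖ ≤ |M| * ‖x‖ := mul_le_mul_of_nonneg_right (le_abs_self M) (norm_nonneg _)
        _ ≤ |M| * R := mul_le_mul_of_nonneg_left hx (abs_nonneg _)
    linarith [hT0 k]
  have hgl : ∀ R k x y, ‖x‖ ≤ R → ‖y‖ ≤ R → ‖g k x - g k y‖ ≤ (B + |M| * R) * ‖x - y‖ := by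
    intro R k x y hx hy
    refine Convex.norm_image_sub_le_of_norm_hasFDerivWithin_le (s := closedBall (0 : E) R)
      (f := g k) (f' := T k) (fun z _ => (hg k z).hasFDerivWithinAt) (fun z hz => ?_)
      (convex_closedBall _ _) (by simpa using hy) (by simpa using hx)
    exact hTb R k z (by simpa using hz)
  have hgb : ∀ R k x, ‖x‖ ≤ R → ‖g k x‖ ≤ C' + (B + |M| * R) * R := by
    intro R k x hx
    have hR : 0 ≤ R := (norm_nonneg x).trans hx
    have h1 := hgl R k x 0 hx (by simpa using hR)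
    rw [sub_zero] at h1
    have h2 : ‖g k x‖ ≤ ‖g k x - g k 0‖ + ‖g k 0‖ := by
      simpa using norm_add_le (g k x - g k 0) (g k 0)
    have hnn : 0 ≤ B + |M| * R := (norm_nonneg _).trans (hTb R k x hx)
    have h3 : (B + |M| * R) * ‖x‖ ≤ (B + |M| * R) * R := mul_le_mul_of_nonneg_left hx hnn
    linarith [hg0 k]
  have hφl : ∀ R k x y, ‖x‖ ≤ R → ‖y‖ ≤ R →
      ‖φ k x - φ k y‖ ≤ (C' + (B + |M| * R) * R) * ‖x - y‖ := by
    intro R k x y hx hy
    refine Convex.norm_image_sub_le_of_norm_hasFDerivWithin_le (s := closedBall (0 : E) R)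
      (f := φ k) (f' := fun z => InnerProductSpace.toDual ℝ E (g k z))
      (fun z _ => (hφ k z).hasFDerivAt.hasFDerivWithinAt) (fun z hz => ?_)
      (convex_closedBall _ _) (by simpa using hy) (by simpa using hx)
    rw [LinearIsometryEquiv.norm_map]
    exact hgb R k z (by simpa using hz)
  -- apply the general lemma to the triple
  let f : ℕ → E → ℝ × E × (E →L[ℝ] E) := fun k x => (φ k x, g k x, T k x)
  obtain ⟨ns, f', hns, hpt, hlu⟩ := exists_subseq_of_lip f
    (fun R => max (C' + (B + |M| * R) * R) (max (B + |M| * R) M))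
    (by
      intro R k x y hx hy
      have hn := norm_nonneg (x - y)
      simp only [f, Prod.mk_sub_mk, Prod.norm_mk]
      refine max_le ((hφl R k x y hx hy).trans ?_)
        (max_le ((hgl R k x y hx hy).trans ?_) ((hM k x y).trans ?_))
      · exact mul_le_mul_of_nonneg_right (le_max_left _ _) hn
      · exact mul_le_mul_of_nonneg_right ((le_max_left _ _).trans (le_max_right _ _)) hn
      · exact mul_le_mul_of_nonneg_right ((le_max_right _ _).trans (le_max_right _ _)) hn)
    (max C (max C' B))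
    (by
      intro k
      simp only [f, Prod.norm_mk, Real.norm_eq_abs]
      exact max_le_max (h0 k) (max_le_max (hg0 k) (hT0 k)))
  have hp1 : ∀ x, Tendsto (fun j => φ (ns j) x) atTop (𝓝 (f' x).1) := fun x =>
    (continuous_fst.tendsto _).comp (hpt x)
  have hp2 : ∀ x, Tendsto (fun j => g (ns j) x) atTop (𝓝 (f' x).2.1) := fun x =>
    ((continuous_fst.comp continuous_snd).tendsto _).comp (hpt x)
  have hp3 : ∀ x, Tendsto (fun j => T (ns j) x) atTop (𝓝 (f' x).2.2) := fun x =>
    ((continuous_snd.comp continuous_snd).tendsto _).comp (hpt x)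
  have hl1 : TendstoLocallyUniformly (fun j => φ (ns j)) (fun x => (f' x).1) atTop :=
    uniformContinuous_fst.comp_tendstoLocallyUniformly hlu
  have hl2 : TendstoLocallyUniformly (fun j => g (ns j)) (fun x => (f' x).2.1) atTop :=
    (uniformContinuous_fst.comp uniformContinuous_snd).comp_tendstoLocallyUniformly hlu
  have hl3 : TendstoLocallyUniformly (fun j => T (ns j)) (fun x => (f' x).2.2) atTop :=
    (uniformContinuous_snd.comp uniformContinuous_snd).comp_tendstoLocallyUniformly hlu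
  refine ⟨ns, fun x => (f' x).1, fun x => (f' x).2.1, fun x => (f' x).2.2, hns, hp1, hp2, hp3,
    hl1, hl2, hl3, ?_, ?_, ?_⟩
  · intro x
    rw [hasGradientAt_iff_hasFDerivAt]
    have hdual : TendstoLocallyUniformly
        (fun j x => InnerProductSpace.toDual ℝ E (g (ns j) x))
        (fun x => InnerProductSpace.toDual ℝ E (f' x).2.1) atTop :=
      (InnerProductSpace.toDual ℝ E).isometry.uniformContinuous.comp_tendstoLocallyUniformly hl2
    exact hasFDerivAt_of_tendstoLocallyUniformlyOn (𝕜 := ℝ) isOpen_univ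
      (tendstoLocallyUniformlyOn_univ.2 hdual)
      (fun j z _ => (hφ (ns j) z).hasFDerivAt) (fun z _ => hp1 z) (mem_univ x)
  · intro x
    exact hasFDerivAt_of_tendstoLocallyUniformlyOn (𝕜 := ℝ) isOpen_univ
      (tendstoLocallyUniformlyOn_univ.2 hl3)
      (fun j z _ => hg (ns j) z) (fun z _ => hp2 z) (mem_univ x)
  · intro x y
    have h1 : Tendsto (fun j => ‖T (ns j) x - T (ns j) y‖) atTop
        (𝓝 ‖(f' x).2.2 - (f' y).2.2‖) := ((hp3 x).sub (hp3 y)).norm
    exact le_of_tendsto' h1 fun j => hM (ns j) x y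

end Vale.Agent.P227.M.LIM
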