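import Mathlib

/-! P227, block LIM: pointwise calculus of uniformly convex even `C^{2,1}` functions. -/

open MeasureTheory Filter Topology Set
open scoped RealInnerProductSpace

namespace Vale.Agent.P227.M.LIM

variable {E : Type*} [NormedAddCommGroup E] [InnerProductSpace ℝ E]

/-- `φ` is even, with gradient `g` and Hessian `T`, `a ≤ T ≤ A` and `T` is `M`-Lipschitz. -/
structure Good (a A M : ℝ) (φ : E → ℝ) (g : E → E) (T : E → (E →L[ℝ] E)) : Prop where
  grad : ∀ y, HasFDerivAt φ (innerSL ℝ (g y)) y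
  hess : ∀ y, HasFDerivAt g (T y) y
  even : ∀ y, φ (-y) = φ y
  lower : ∀ y v, a * ‖v‖ ^ 2 ≤ ⟪T y v, v⟫
  upper : ∀ y, ‖T y‖ ≤ A
  lip : ∀ y z, ‖T y - T z‖ ≤ M * ‖y - z‖

namespace Good

variable {a A M : ℝ} {φ : E → ℝ} {g : E → E} {T : E → (E →L[ℝ] E)}

theorem g_neg (h : Good a A M φ g T) (y : E) : g (-y) = - g y := by
  have h1 : HasFDerivAt (fun y => φ (-y)) ((innerSL ℝ (g (-y))).comp (-(ContinuousLinearMap.id ℝ E))) y := by
    have := (h.grad (-y)).comp y ((hasFDerivAt_id y).neg)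
    simpa [Function.comp_def] using this
  have h2 : (fun y => φ (-y)) = φ := funext h.even
  rw [h2] at h1
  have h3 := h1.unique (h.grad y)
  have h4 : ∀ v, ⟪g (-y), v⟫ = ⟪- g y, v⟫ := by
    intro v
    have := congrArg (fun L => L (-v)) h3
    simp [innerSL_apply_apply] at this
    rw [this]
    simp [inner_neg_left]
  exact ext_inner_right ℝ h4

theorem g_zero (h : Good a A M φ g T) : g 0 = 0 := by
  have := h.g_neg 0
  rw [neg_zero] at this
  have h2 : (2 : ℝ) • g 0 = 0 := by
    rw [two_smul]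
    nth_rewrite 1 [this]
    simp
  exact (smul_eq_zero.mp h2).resolve_left two_ne_zero

theorem A_nonneg (h : Good a A M φ g T) : 0 ≤ A := (norm_nonneg _).trans (h.upper 0)

theorem g_lip (h : Good a A M φ g T) (y z : E) : ‖g y - g z‖ ≤ A * ‖y - z‖ :=
  convex_univ.norm_image_sub_le_of_norm_hasFDerivWithin_le
    (fun x _ => (h.hess x).hasFDerivWithinAt) (fun x _ => h.upper x) (mem_univ z) (mem_univ y)

theorem norm_g_le (h : Good a A M φ g T) (y : E) : ‖g y‖ ≤ A * ‖y‖ := by
  simpa [h.g_zero] using h.g_lip y 0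

theorem g_taylor (h : Good a A M φ g T) (hM : 0 ≤ M) (y z : E) :
    ‖g z - g y - T y (z - y)‖ ≤ M * ‖z - y‖ * ‖z - y‖ := by
  refine (convex_closedBall y ‖z - y‖).norm_image_sub_le_of_norm_hasFDerivWithin_le'
    (fun x _ => (h.hess x).hasFDerivWithinAt) (fun x hx => ?_) ?_ ?_
  · refine (h.lip x y).trans ?_
    rw [Metric.mem_closedBall, dist_eq_norm] at hx
    gcongr
  · simp
  · simp [dist_eq_norm]

theorem φ_taylor (h : Good a A M φ g T) (y z : E) :
    |φ z - φ y - ⟪g y, z - y⟫| ≤ A * ‖z - y‖ * ‖z - y‖ := by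
  have := (convex_closedBall y ‖z - y‖).norm_image_sub_le_of_norm_hasFDerivWithin_le'
    (f := φ) (f' := fun x => innerSL ℝ (g x)) (φ := innerSL ℝ (g y)) (C := A * ‖z - y‖) (x := y) (y := z)
    (fun x _ => (h.grad x).hasFDerivWithinAt) (fun x hx => ?_) ?_ ?_
  · simpa [innerSL_apply_apply] using this
  · rw [← map_sub, innerSL_apply_norm]
    refine (h.g_lip x y).trans ?_
    rw [Metric.mem_closedBall, dist_eq_norm] at hx
    have := h.A_nonneg
    gcongr
  · simp
  · simp [dist_eq_norm]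

theorem φ_lip (h : Good a A M φ g T) {R : ℝ} {y z : E} (hy : ‖y‖ ≤ R) (hz : ‖z‖ ≤ R) :
    |φ y - φ z| ≤ A * R * ‖y - z‖ := by
  have hA := h.A_nonneg
  have := (convex_closedBall (0 : E) R).norm_image_sub_le_of_norm_hasFDerivWithin_le
    (f := φ) (f' := fun x => innerSL ℝ (g x)) (C := A * R) (x := z) (y := y)
    (fun x _ => (h.grad x).hasFDerivWithinAt) (fun x hx => ?_) (by simpa using hz) (by simpa using hy)
  · simpa using this
  · rw [innerSL_apply_norm]
    refine (h.norm_g_le x).trans ?_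
    have : ‖x‖ ≤ R := by simpa using hx
    gcongr

/-- strong monotonicity of the gradient -/
theorem mono (h : Good a A M φ g T) (y z : E) : a * ‖y - z‖ ^ 2 ≤ ⟪g y - g z, y - z⟫ := by
  set v := y - z with hv
  let f : ℝ → ℝ := fun t => ⟪g (z + t • v), v⟫ - a * ‖v‖ ^ 2 * t
  have hf : ∀ t, HasDerivAt f (⟪T (z + t • v) v, v⟫ - a * ‖v‖ ^ 2) t := by
    intro t
    have h1 : HasDerivAt (fun t : ℝ => z + t • v) v t := by
      simpa using ((hasDerivAt_id t).smul_const v).const_add z
    have h2 := (h.hess (z + t • v)).comp_hasDerivAt t h1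
    have h3 : HasDerivAt (fun t : ℝ => ⟪g (z + t • v), v⟫) ⟪T (z + t • v) v, v⟫ t := by
      have := h2.inner ℝ (hasDerivAt_const t v)
      simpa [Function.comp_def] using this
    have h4 : HasDerivAt (fun t : ℝ => a * ‖v‖ ^ 2 * t) (a * ‖v‖ ^ 2) t := by
      simpa using (hasDerivAt_id t).const_mul (a * ‖v‖ ^ 2)
    exact h3.sub h4
  have hmono : Monotone f := by
    refine monotone_of_deriv_nonneg (fun t => (hf t).differentiableAt) (fun t => ?_)
    rw [(hf t).deriv]
    have := h.lower (z + t • v) v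
    linarith
  have h01 := hmono (zero_le_one (α := ℝ))
  simp only [f, zero_smul, one_smul, add_zero, mul_zero, sub_zero, mul_one] at h01
  have hz : z + v = y := by rw [hv]; abel
  rw [hz] at h01
  rw [inner_sub_left]
  linarith

theorem norm_g_ge (h : Good a A M φ g T) (y z : E) : a * ‖y - z‖ ≤ ‖g y - g z‖ := by
  rcases eq_or_ne y z with rfl | hne
  · simp
  have hpos : 0 < ‖y - z‖ := norm_pos_iff.mpr (sub_ne_zero.mpr hne)
  have h1 := h.mono y z
  have h2 := real_inner_le_norm (g y - g z) (y - z)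
  have h3 : (a * ‖y - z‖) * ‖y - z‖ ≤ ‖g y - g z‖ * ‖y - z‖ := by nlinarith
  exact le_of_mul_le_mul_right h3 hpos

theorem injective (h : Good a A M φ g T) (ha : 0 < a) : Function.Injective g := by
  intro y z hyz
  have := h.norm_g_ge y z
  rw [hyz, sub_self, norm_zero] at this
  have h0 : ‖y - z‖ ≤ 0 := by
    by_contra hc
    push Not at hc
    have := mul_pos ha hc
    linarith
  exact sub_eq_zero.mp (norm_le_zero_iff.mp h0)

/-- quadratic growth -/
theorem φ_ge (h : Good a A M φ g T) (y : E) : φ 0 + a / 2 * ‖y‖ ^ 2 ≤ φ y := by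
  let f : ℝ → ℝ := fun t => φ (t • y) - a / 2 * ‖y‖ ^ 2 * t ^ 2
  have hf : ∀ t, HasDerivAt f (⟪g (t • y), y⟫ - a * ‖y‖ ^ 2 * t) t := by
    intro t
    have h1 : HasDerivAt (fun t : ℝ => t • y) y t := by
      simpa using (hasDerivAt_id t).smul_const y
    have h2 := (h.grad (t • y)).comp_hasDerivAt t h1
    have h3 : HasDerivAt (fun t : ℝ => φ (t • y)) ⟪g (t • y), y⟫ t := by
      simpa [Function.comp_def, innerSL_apply_apply] using h2
    have h4 : HasDerivAt (fun t : ℝ => a / 2 * ‖y‖ ^ 2 * t ^ 2) (a * ‖y‖ ^ 2 * t) t := by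
      have := (hasDerivAt_pow 2 t).const_mul (a / 2 * ‖y‖ ^ 2)
      refine this.congr_deriv ?_
      norm_num
      ring
    exact h3.sub h4
  have hmono : MonotoneOn f (Icc 0 1) := by
    refine monotoneOn_of_deriv_nonneg (convex_Icc 0 1)
      (fun t _ => (hf t).continuousAt.continuousWithinAt)
      (fun t _ => (hf t).differentiableAt.differentiableWithinAt) (fun t ht => ?_)
    rw [interior_Icc] at ht
    rw [(hf t).deriv]
    have h1 := h.mono (t • y) 0
    rw [h.g_zero, sub_zero, sub_zero, norm_smul, Real.norm_eq_abs, inner_smul_right, mul_pow, sq_abs] at h1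
    have ht0 : 0 < t := ht.1
    have h2 : t * (a * ‖y‖ ^ 2 * t) ≤ t * ⟪g (t • y), y⟫ := by linarith [h1]
    have h3 := le_of_mul_le_mul_left h2 ht0
    linarith
  have h01 := hmono (left_mem_Icc.mpr zero_le_one) (right_mem_Icc.mpr zero_le_one) zero_le_one
  simp only [f, zero_smul, one_smul] at h01
  norm_num at h01
  linarith

theorem φ_le (h : Good a A M φ g T) (y : E) : φ y ≤ φ 0 + A * ‖y‖ ^ 2 := by
  have := h.φ_taylor 0 y
  rw [h.g_zero, inner_zero_left, sub_zero, sub_zero] at this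
  have := (abs_le.mp this).2
  nlinarith

theorem continuous_g (h : Good a A M φ g T) : Continuous g :=
  continuous_iff_continuousAt.mpr fun y => (h.hess y).continuousAt

theorem continuous_φ (h : Good a A M φ g T) : Continuous φ :=
  continuous_iff_continuousAt.mpr fun y => (h.grad y).continuousAt

theorem continuous_T (h : Good a A M φ g T) (hM : 0 ≤ M) : Continuous T := by
  have : LipschitzWith M.toNNReal T := LipschitzWith.of_dist_le_mul fun y z => by
    rw [dist_eq_norm, dist_eq_norm, Real.coe_toNNReal M hM]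
    exact h.lip y z
  exact this.continuous

theorem surjective [FiniteDimensional ℝ E] (h : Good a A M φ g T) (ha : 0 < a) :
    Function.Surjective g := by
  intro x
  let f : E → ℝ := fun y => φ y - ⟪x, y⟫
  have hf : ∀ y, HasFDerivAt f (innerSL ℝ (g y) - innerSL ℝ x) y := fun y =>
    (h.grad y).sub (innerSL ℝ x).hasFDerivAt
  have hcont : Continuous f := continuous_iff_continuousAt.mpr fun y => (hf y).continuousAt
  have hlow : ∀ y, φ 0 + (a / 4) * ‖y‖ ^ 2 - ‖x‖ ^ 2 / a ≤ f y := by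
    intro y
    have h1 := h.φ_ge y
    have h2 := real_inner_le_norm x y
    have h3 : ‖x‖ * ‖y‖ ≤ ‖x‖ ^ 2 / a + a / 4 * ‖y‖ ^ 2 := by
      have : 0 ≤ (‖x‖ - a / 2 * ‖y‖) ^ 2 / a := by positivity
      have h4 : (‖x‖ - a / 2 * ‖y‖) ^ 2 / a = ‖x‖ ^ 2 / a + a / 4 * ‖y‖ ^ 2 - ‖x‖ * ‖y‖ := by
        field_simp
        ring
      linarith
    simp only [f]
    linarith
  have htend : Tendsto f (cocompact E) atTop := by
    refine tendsto_atTop_mono hlow ?_
    have h1 : Tendsto (fun y : E => ‖y‖ ^ 2) (cocompact E) atTop :=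
      (tendsto_pow_atTop two_ne_zero).comp (tendsto_norm_cocompact_atTop)
    have h2 : Tendsto (fun y : E => a / 4 * ‖y‖ ^ 2) (cocompact E) atTop :=
      h1.const_mul_atTop (by positivity)
    have h3 := tendsto_atTop_add_const_right (cocompact E) (φ 0 - ‖x‖ ^ 2 / a) h2
    refine h3.congr fun y => ?_
    ring
  obtain ⟨y, hy⟩ := hcont.exists_forall_le htend
  have hmin : IsLocalMin f y := Filter.Eventually.of_forall hy
  have h0 := hmin.hasFDerivAt_eq_zero (hf y)
  refine ⟨y, ?_⟩
  have h4 : ∀ v, ⟪g y, v⟫ = ⟪x, v⟫ := by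
    intro v
    have := congrArg (fun L => L v) h0
    simp [innerSL_apply_apply] at this
    linarith
  exact ext_inner_right ℝ h4

end Good

end Vale.Agent.P227.M.LIM
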