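import Vale.Agent.P227.M.LIM.Lim
import Vale.Agent.P227.M.Mom.Out
import Vale.Agent.P227.M.DUAL.ToMM

/-! # P227/M/LIM/Glue5: `StmtLim`, i.e. level-`k` output `LKOut` ⟹ `MM`. -/

noncomputable section

open MeasureTheory Filter Topology Set
open scoped RealInnerProductSpace NNReal

namespace Vale.Agent.P227.M.LIM

section Conv

variable {E : Type*} [NormedAddCommGroup E] [InnerProductSpace ℝ E] [FiniteDimensional ℝ E]
  [MeasurableSpace E] [BorelSpace E]

/-- `exists_moment_map` together with the pointwise convergence of the Hessians. -/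
theorem exists_moment_map_conv {a A M : ℝ} (ha : 0 < a) (hA : 0 < A) (hM : 0 ≤ M)
    {φ : ℕ → E → ℝ} {g : ℕ → E → E} {T : ℕ → E → (E →L[ℝ] E)}
    (h : ∀ k, Good a A M (φ k) (g k) (T k)) {c₁ c₂ : ℝ} (hc₁ : 0 < c₁)
    (h1 : ∀ k, c₁ ≤ ∫ y, Real.exp (-φ k y)) (h2 : ∀ k, ∫ y, Real.exp (-φ k y) ≤ c₂)
    {V : E → ℝ} (hV : Continuous V)
    (hpush : ∀ (x₀ : E) (δ : ℝ), 0 < δ →
      Tendsto (fun k => ∫ y, bump x₀ δ (g k y) * Real.exp (-φ k y)) atTop
        (𝓝 (∫ x, bump x₀ δ x * Real.exp (-V x)))) :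
    ∃ (ψ : ℕ → ℕ) (φ' : E → ℝ) (g' : E → E) (T' : E → (E →L[ℝ] E)), StrictMono ψ ∧
      Good a A M φ' g' T' ∧ (∀ y, Tendsto (fun k => T (ψ k) y) atTop (𝓝 (T' y))) ∧
      (∀ y, Real.exp (-φ' y) = Real.exp (-V (g' y)) * |(T' y).det|) := by
  set C := |Real.log (c₁ / ∫ y : E, Real.exp (-(a / 2 * ‖y‖ ^ 2)))| +
      |Real.log (c₂ / ∫ y : E, Real.exp (-(A * ‖y‖ ^ 2)))| with hC
  have hφ0 : ∀ k, |φ k 0| ≤ C := fun k => (h k).abs_φ_zero_le ha hA hc₁ (h1 k) (h2 k)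
  obtain ⟨ψ, hψ, φ', g', T', t1, t2, t3, hG⟩ := exists_limit hM h hφ0
  have ha2 := half_pos ha
  have hdom : ∀ k y, Real.exp (-φ k y) ≤ Real.exp C * Real.exp (-(a / 2 * ‖y‖ ^ 2)) := by
    intro k y
    refine ((h k).exp_le y).trans ?_
    have := neg_abs_le (φ k 0)
    have := hφ0 k
    gcongr
    linarith
  have e2 : ∀ (x₀ : E) (δ : ℝ), 0 < δ →
      Tendsto (fun k => ∫ y, bump x₀ δ (g (ψ k) y) * Real.exp (-φ (ψ k) y)) atTop
        (𝓝 (∫ y, bump x₀ δ (g' y) * Real.exp (-φ' y))) := by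
    intro x₀ δ hδ
    refine tendsto_integral_of_dominated_convergence
      (fun y => δ * (Real.exp C * Real.exp (-(a / 2 * ‖y‖ ^ 2))))
      (fun k => (((continuous_bump x₀ δ).comp (h (ψ k)).continuous_g).mul
        (h (ψ k)).continuous_φ.neg.rexp).aestronglyMeasurable)
      (((integrable_gauss ha2).const_mul _).const_mul _)
      (fun k => Filter.Eventually.of_forall fun y => ?_)
      (Filter.Eventually.of_forall fun y => ?_)
    · rw [Real.norm_eq_abs, abs_of_nonneg (mul_nonneg (bump_nonneg _ _ _) (Real.exp_pos _).le)]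
      exact mul_le_mul (bump_le _ hδ.le _) (hdom (ψ k) y) (Real.exp_pos _).le hδ.le
    · exact (((continuous_bump x₀ δ).tendsto _).comp (t2 y)).mul
        ((Real.continuous_exp.tendsto _).comp (t1 y).neg)
  have e3 : ∀ (x₀ : E) (δ : ℝ), 0 < δ →
      ∫ y, bump x₀ δ (g' y) * Real.exp (-φ' y) = ∫ x, bump x₀ δ x * Real.exp (-V x) :=
    fun x₀ δ hδ => tendsto_nhds_unique (e2 x₀ δ hδ) ((hpush x₀ δ hδ).comp hψ.tendsto_atTop)
  have hint : ∀ (x₀ : E) (δ : ℝ), 0 < δ →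
      Integrable fun y => bump x₀ δ (g' y) * Real.exp (-φ' y) := by
    intro x₀ δ hδ
    refine ((hG.integrable_exp ha).const_mul δ).mono'
      (((continuous_bump x₀ δ).comp hG.continuous_g).mul
        hG.continuous_φ.neg.rexp).aestronglyMeasurable (Filter.Eventually.of_forall fun y => ?_)
    rw [Real.norm_eq_abs, abs_of_nonneg (mul_nonneg (bump_nonneg _ _ _) (Real.exp_pos _).le)]
    exact mul_le_mul_of_nonneg_right (bump_le _ hδ.le _) (Real.exp_pos _).le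
  refine ⟨ψ, φ', g', T', hψ, hG, t3, fun y => ?_⟩
  exact monge_ampere (p := fun y => Real.exp (-φ' y)) (q := fun x => Real.exp (-V x)) ha hG.hess
      (hG.continuous_T hM) (hG.surjective ha) hG.norm_g_ge hG.continuous_φ.neg.rexp hV.neg.rexp
      e3 hint y

end Conv

open Vale.Agent.P227.M Vale.Agent.P227.M.Dif Vale.Agent.P227.M.DUAL

variable {n : ℕ}

/-- `n = 0` -/
lemma mm_zero (V : E 0 → ℝ) {c C : ℝ} (hc : 0 < c) : MM (fun _ => -V 0) V c C 0 where
  c_pos := hc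
  C2 := contDiff_const
  even := fun _ => rfl
  lower := fun x v => by
    rw [Subsingleton.elim v 0]; simp [qf]
  upper := fun x v => by
    rw [Subsingleton.elim v 0]; simp [qf]
  lip := fun i => i.elim0
  ma := fun x => by
    rw [Subsingleton.elim x 0]; simp

/-- one approximate potential as a `Good` triple -/
lemma good_of {φ : E n → ℝ} {a A M : ℝ} (hφ : ContDiff ℝ (⊤ : ℕ∞) φ) (hev : ∀ x, φ (-x) = φ x)
    (ha : 0 < a) (hlow : ∀ x v, a * ‖v‖ ^ 2 ≤ qf (hess φ x) v)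
    (hA : 0 ≤ A) (hup : ∀ x v, qf (hess φ x) v ≤ A * ‖v‖ ^ 2)
    (hlip : ∀ x y, ‖hT φ x - hT φ y‖ ≤ M * ‖x - y‖) :
    Good a A M φ (gradient φ) (hT φ) := by
  have h2 : ContDiff ℝ 2 φ := by exact_mod_cast contDiff_infty.1 hφ 2
  have hs : ∀ y v w, ⟪hT φ y v, w⟫ = ⟪v, hT φ y w⟫ := fun y v w => by
    rw [hT_symm h2 y v w, real_inner_comm]
  have hlow' : ∀ y v, a * ‖v‖ ^ 2 ≤ ⟪hT φ y v, v⟫ := fun y v => by
    rw [← qf_hT h2]; exact hlow y v
  have hup' : ∀ y v, ⟪hT φ y v, v⟫ ≤ A * ‖v‖ ^ 2 := fun y v => by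
    rw [← qf_hT h2]; exact hup y v
  refine ⟨fun y => ?_, fun y => hasFDerivAt_gradient h2 y, hev, hlow', fun y => ?_, hlip⟩
  · exact (hasGradientAt_of_contDiff (by norm_num) h2 y).hasFDerivAt
  · refine ContinuousLinearMap.opNorm_le_bound _ hA fun v => ?_
    exact GMap.norm_apply_le (hs y) (fun v => (by positivity : 0 ≤ a * ‖v‖ ^ 2).trans (hlow' y v))
      (hup' y) v

/-- the bump functions are controlled by the test class of `LKOut` -/
lemma bump_test (x₀ : E n) {δ : ℝ} (hδ : 0 < δ) {φ V : E n → ℝ} {ε : ℝ}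
    (h : ∀ F : E n → ℝ, (∀ x, |F x| ≤ 1) → LipschitzWith 1 F →
      |(∫ y, F (gradient φ y) * Real.exp (-φ y)) - ∫ x, F x * Real.exp (-V x)| ≤ ε) :
    |(∫ y, bump x₀ δ (gradient φ y) * Real.exp (-φ y)) - ∫ x, bump x₀ δ x * Real.exp (-V x)|
      ≤ (1 + δ) * ε := by
  have hd : 0 < 1 + δ := by linarith
  have h1 := h (fun x => (1 + δ)⁻¹ * bump x₀ δ x) (fun x => by
      rw [abs_of_nonneg (mul_nonneg (inv_nonneg.2 hd.le) (bump_nonneg _ _ _)),
        inv_mul_le_iff₀ hd]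
      have := bump_le x₀ hδ.le x
      linarith) (LipschitzWith.of_dist_le_mul fun x y => by
      rw [Real.dist_eq, dist_eq_norm, ← mul_sub, abs_mul, abs_of_nonneg (inv_nonneg.2 hd.le),
        inv_mul_le_iff₀ hd]
      have h3 := bump_lip x₀ δ x y
      have h4 := norm_nonneg (x - y)
      simp only [NNReal.coe_one, one_mul]
      nlinarith)
  have e1 : (∫ y, ((1 + δ)⁻¹ * bump x₀ δ (gradient φ y)) * Real.exp (-φ y))
      = (1 + δ)⁻¹ * ∫ y, bump x₀ δ (gradient φ y) * Real.exp (-φ y) := by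
    rw [← integral_const_mul]
    congr 1
    funext y
    ring
  have e2 : (∫ x, ((1 + δ)⁻¹ * bump x₀ δ x) * Real.exp (-V x))
      = (1 + δ)⁻¹ * ∫ x, bump x₀ δ x * Real.exp (-V x) := by
    rw [← integral_const_mul]
    congr 1
    funext y
    ring
  rw [e1, e2, ← mul_sub, abs_mul, abs_of_nonneg (inv_nonneg.2 hd.le), inv_mul_le_iff₀ hd] at h1
  exact h1

theorem stmtLim : StmtLim := by
  intro n V c C hV hint hLK
  rcases Nat.eq_zero_or_pos n with hn | hn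
  · subst hn
    exact ⟨_, _, mm_zero V hV.c_pos⟩
  have hc := hV.c_pos
  have hcC : c ≤ C := by
    have h1 := (hV.lower 0 (ei ⟨0, hn⟩)).trans (hV.upper 0 (ei ⟨0, hn⟩))
    simpa [ei] using h1
  have hC : 0 < C := lt_of_lt_of_le hc hcC
  obtain ⟨M, hM⟩ := hLK
  have hε : ∀ k : ℕ, (0 : ℝ) < 1 / ((k : ℝ) + 2) := fun k => by positivity
  choose φ hφs hφe hφl hφu hφlip hφ1 hφp using fun k : ℕ => hM _ (hε k)
  have hC' : 0 < C⁻¹ := inv_pos.2 hC
  have hc' : 0 < c⁻¹ := inv_pos.2 hc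
  have hhalf : ∀ k : ℕ, (1 : ℝ) / ((k : ℝ) + 2) ≤ 1 / 2 := fun k =>
    one_div_le_one_div_of_le (by norm_num) (by linarith [k.cast_nonneg (α := ℝ)])
  have hgood : ∀ k, Good (C⁻¹ / 2) c⁻¹ |M| (φ k) (gradient (φ k)) (hT (φ k)) := fun k =>
    good_of (hφs k) (hφe k) (half_pos hC') (fun x v => by
      refine le_trans ?_ (hφl k x v)
      have h1 := hhalf k
      have h2 : 0 ≤ C⁻¹ * ‖v‖ ^ 2 := by positivity
      nlinarith) hc'.le (hφu k) (fun x y => (hφlip k x y).trans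
        (mul_le_mul_of_nonneg_right (le_abs_self M) (norm_nonneg _)))
  have hεt : Tendsto (fun k : ℕ => (1 : ℝ) / ((k : ℝ) + 2)) atTop (𝓝 0) := by
    have h1 : Tendsto (fun k : ℕ => (k : ℝ) + 2) atTop atTop :=
      tendsto_atTop_add_const_right _ _ tendsto_natCast_atTop_atTop
    exact (tendsto_const_nhds (x := (1 : ℝ))).div_atTop h1
  have hpush : ∀ (x₀ : E n) (δ : ℝ), 0 < δ →
      Tendsto (fun k => ∫ y, bump x₀ δ (gradient (φ k) y) * Real.exp (-φ k y)) atTop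
        (𝓝 (∫ x, bump x₀ δ x * Real.exp (-V x))) := by
    intro x₀ δ hδ
    rw [tendsto_iff_dist_tendsto_zero]
    refine squeeze_zero (fun k => dist_nonneg) (fun k => ?_)
      (by simpa using hεt.const_mul (1 + δ) : Tendsto (fun k : ℕ => (1 + δ) * (1 / ((k : ℝ) + 2))) atTop (𝓝 0))
    rw [Real.dist_eq]
    exact bump_test x₀ hδ (hφp k)
  obtain ⟨ψ, φ', g', T', hψ, hG, hTt, hma⟩ := exists_moment_map_conv (half_pos hC') hc' (abs_nonneg M)
    hgood zero_lt_one (fun k => (hφ1 k).ge) (fun k => (hφ1 k).le) hV.smooth.continuous hpush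
  have h2 : ∀ k, ContDiff ℝ 2 (φ k) := fun k => by exact_mod_cast contDiff_infty.1 (hφs k) 2
  have hin : ∀ y v w, Tendsto (fun k => ⟪hT (φ (ψ k)) y v, w⟫) atTop (𝓝 ⟪T' y v, w⟫) := by
    intro y v w
    have h3 : Tendsto (fun k => hT (φ (ψ k)) y v) atTop (𝓝 (T' y v)) :=
      ((ContinuousLinearMap.apply ℝ (E n) v).continuous.tendsto _).comp (hTt y)
    exact h3.inner tendsto_const_nhds
  refine mm_of_limit_grad (phi := φ') (g := g') (T := T') (M := |M|) hc hC (fun y => hG.grad y) hG.hess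
    (fun y v => ?_) (fun y v => ?_) (fun y v w => ?_) hG.lip hG.even hma
  · have h3 : Tendsto (fun k : ℕ => (1 - 1 / (((ψ k : ℕ) : ℝ) + 2)) * C⁻¹ * ‖v‖ ^ 2) atTop
        (𝓝 ((1 - 0) * C⁻¹ * ‖v‖ ^ 2)) :=
      ((tendsto_const_nhds.sub (hεt.comp hψ.tendsto_atTop)).mul_const _).mul_const _
    have h4 := le_of_tendsto_of_tendsto' h3 (hin y v v) (fun k => by
      have := hφl (ψ k) y v
      rw [qf_hT (h2 _)] at this
      exact this)
    simpa using h4
  · refine le_of_tendsto' (hin y v v) (fun k => ?_)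
    have := hφu (ψ k) y v
    rw [qf_hT (h2 _)] at this
    exact this
  · refine tendsto_nhds_unique (hin y v w) ?_
    have h5 := hin y w v
    have h6 : (fun k => ⟪hT (φ (ψ k)) y w, v⟫) = fun k => ⟪hT (φ (ψ k)) y v, w⟫ := by
      funext k
      rw [hT_symm (h2 _)]
    rw [h6, real_inner_comm] at h5
    exact h5

end Vale.Agent.P227.M.LIM
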