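import Vale.Agent.P227.M.LIM.Extract

/-! P227, block LIM: integrals; the pushforward identity implies the pointwise Monge-Ampere equation. -/

open MeasureTheory Filter Topology Set
open scoped RealInnerProductSpace

namespace Vale.Agent.P227.M.LIM

variable {E : Type*} [NormedAddCommGroup E] [InnerProductSpace ℝ E] [FiniteDimensional ℝ E]
  [MeasurableSpace E] [BorelSpace E]

theorem integrable_gauss {b : ℝ} (hb : 0 < b) :
    Integrable (fun y : E => Real.exp (-(b * ‖y‖ ^ 2))) := by
  have h := (GaussianFourier.integrable_cexp_neg_mul_sq_norm_add (V := E) (b := (b : ℂ))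
    (by simpa using hb) 0 0).norm
  refine h.congr (Filter.Eventually.of_forall fun y => ?_)
  simp only [zero_mul, add_zero]
  rw [Complex.norm_exp]
  congr 1
  have : (-(b : ℂ) * (‖y‖ : ℂ) ^ 2) = ((-(b * ‖y‖ ^ 2) : ℝ) : ℂ) := by push_cast; ring
  rw [this, Complex.ofReal_re]

theorem gauss_pos {b : ℝ} (hb : 0 < b) :
    0 < ∫ y : E, Real.exp (-(b * ‖y‖ ^ 2)) := by
  refine (integral_pos_iff_support_of_nonneg (fun y => (Real.exp_pos _).le)
    (integrable_gauss hb)).mpr ?_
  have : Function.support (fun y : E => Real.exp (-(b * ‖y‖ ^ 2))) = univ := by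
    ext y; simp [Real.exp_ne_zero]
  rw [this]
  exact isOpen_univ.measure_pos _ univ_nonempty

namespace Good

variable {a A M C : ℝ} {φ : E → ℝ} {g : E → E} {T : E → (E →L[ℝ] E)}

theorem exp_le (h : Good a A M φ g T) (y : E) :
    Real.exp (-φ y) ≤ Real.exp (-φ 0) * Real.exp (-(a / 2 * ‖y‖ ^ 2)) := by
  rw [← Real.exp_add]
  apply Real.exp_le_exp.mpr
  linarith [h.φ_ge y]

theorem exp_ge (h : Good a A M φ g T) (y : E) :
    Real.exp (-φ 0) * Real.exp (-(A * ‖y‖ ^ 2)) ≤ Real.exp (-φ y) := by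
  rw [← Real.exp_add]
  apply Real.exp_le_exp.mpr
  linarith [h.φ_le y]

theorem integrable_exp (h : Good a A M φ g T) (ha : 0 < a) :
    Integrable (fun y => Real.exp (-φ y)) := by
  refine ((integrable_gauss (E := E) (half_pos ha)).const_mul (Real.exp (-φ 0))).mono'
    (h.continuous_φ.neg.rexp.aestronglyMeasurable) (Filter.Eventually.of_forall fun y => ?_)
  rw [Real.norm_eq_abs, abs_of_pos (Real.exp_pos _)]
  exact h.exp_le y

/-- normalisation bounds `φ 0` -/
theorem abs_φ_zero_le (h : Good a A M φ g T) (ha : 0 < a) (hA : 0 < A)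
    {c₁ c₂ : ℝ} (hc₁ : 0 < c₁) (h1 : c₁ ≤ ∫ y, Real.exp (-φ y)) (h2 : ∫ y, Real.exp (-φ y) ≤ c₂) :
    |φ 0| ≤ |Real.log (c₁ / ∫ y : E, Real.exp (-(a / 2 * ‖y‖ ^ 2)))| +
      |Real.log (c₂ / ∫ y : E, Real.exp (-(A * ‖y‖ ^ 2)))| := by
  have ha2 := half_pos ha
  have p1 := gauss_pos (E := E) ha2
  have p2 := gauss_pos (E := E) hA
  have hc₂ : 0 < c₂ := lt_of_lt_of_le hc₁ (h1.trans h2)
  have u1 : ∫ y, Real.exp (-φ y) ≤ Real.exp (-φ 0) * ∫ y : E, Real.exp (-(a / 2 * ‖y‖ ^ 2)) := by
    rw [← integral_const_mul]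
    exact integral_mono (h.integrable_exp ha) ((integrable_gauss ha2).const_mul _) h.exp_le
  have u2 : Real.exp (-φ 0) * ∫ y : E, Real.exp (-(A * ‖y‖ ^ 2)) ≤ ∫ y, Real.exp (-φ y) := by
    rw [← integral_const_mul]
    exact integral_mono ((integrable_gauss hA).const_mul _) (h.integrable_exp ha) h.exp_ge
  have v1 : c₁ / ∫ y : E, Real.exp (-(a / 2 * ‖y‖ ^ 2)) ≤ Real.exp (-φ 0) := by
    rw [div_le_iff₀ p1]; exact h1.trans u1
  have v2 : Real.exp (-φ 0) ≤ c₂ / ∫ y : E, Real.exp (-(A * ‖y‖ ^ 2)) := by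
    rw [le_div_iff₀ p2]; exact u2.trans h2
  have w1 := Real.log_le_log (div_pos hc₁ p1) v1
  have w2 := Real.log_le_log (Real.exp_pos _) v2
  rw [Real.log_exp] at w1 w2
  rw [abs_le]
  constructor
  · have := le_abs_self (Real.log (c₂ / ∫ y : E, Real.exp (-(A * ‖y‖ ^ 2))))
    have := abs_nonneg (Real.log (c₁ / ∫ y : E, Real.exp (-(a / 2 * ‖y‖ ^ 2))))
    linarith
  · have := neg_abs_le (Real.log (c₁ / ∫ y : E, Real.exp (-(a / 2 * ‖y‖ ^ 2))))
    have := abs_nonneg (Real.log (c₂ / ∫ y : E, Real.exp (-(A * ‖y‖ ^ 2))))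
    linarith

end Good

/-- the bump function `x ↦ max 0 (δ - |x - x₀|)` -/
noncomputable def bump (x₀ : E) (δ : ℝ) (x : E) : ℝ := max 0 (δ - ‖x - x₀‖)

omit [FiniteDimensional ℝ E] [MeasurableSpace E] [BorelSpace E] in
theorem bump_nonneg (x₀ : E) (δ : ℝ) (x : E) : 0 ≤ bump x₀ δ x := le_max_left _ _

omit [FiniteDimensional ℝ E] [MeasurableSpace E] [BorelSpace E] in
theorem bump_le (x₀ : E) {δ : ℝ} (hδ : 0 ≤ δ) (x : E) : bump x₀ δ x ≤ δ :=
  max_le hδ (by linarith [norm_nonneg (x - x₀)])

omit [FiniteDimensional ℝ E] [MeasurableSpace E] [BorelSpace E] in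
theorem bump_lip (x₀ : E) (δ : ℝ) (x y : E) : |bump x₀ δ x - bump x₀ δ y| ≤ ‖x - y‖ := by
  unfold bump
  have h1 : |max 0 (δ - ‖x - x₀‖) - max 0 (δ - ‖y - x₀‖)| ≤
      |(δ - ‖x - x₀‖) - (δ - ‖y - x₀‖)| := by
    have := abs_max_sub_max_le_max 0 (δ - ‖x - x₀‖) 0 (δ - ‖y - x₀‖)
    refine this.trans ?_
    simp
  refine h1.trans ?_
  have h2 : (δ - ‖x - x₀‖) - (δ - ‖y - x₀‖) = ‖y - x₀‖ - ‖x - x₀‖ := by ring
  rw [h2]
  refine (abs_norm_sub_norm_le _ _).trans (le_of_eq ?_)
  rw [← norm_neg]
  congr 1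
  abel

omit [FiniteDimensional ℝ E] [MeasurableSpace E] [BorelSpace E] in
theorem continuous_bump (x₀ : E) (δ : ℝ) : Continuous (bump x₀ δ) := by
  unfold bump
  fun_prop

theorem hasCompactSupport_bump (x₀ : E) (δ : ℝ) : HasCompactSupport (bump x₀ δ) := by
  refine HasCompactSupport.intro (isCompact_closedBall x₀ δ) fun x hx => ?_
  rw [Metric.mem_closedBall, dist_eq_norm, not_le] at hx
  unfold bump
  exact max_eq_left (by linarith)

/-- (MA): the pushforward identity for all bump functions gives the pointwise change of density. -/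
theorem monge_ampere {g : E → E} {T : E → (E →L[ℝ] E)} {a : ℝ} (ha : 0 < a)
    (hg : ∀ y, HasFDerivAt g (T y) y) (hT : Continuous T) (hsurj : Function.Surjective g)
    (hmono : ∀ y z, a * ‖y - z‖ ≤ ‖g y - g z‖)
    {p q : E → ℝ} (hp : Continuous p) (hq : Continuous q)
    (hpush : ∀ (x₀ : E) (δ : ℝ), 0 < δ → ∫ y, bump x₀ δ (g y) * p y = ∫ x, bump x₀ δ x * q x)
    (hpint : ∀ (x₀ : E) (δ : ℝ), 0 < δ → Integrable fun y => bump x₀ δ (g y) * p y) (y₀ : E) :
    p y₀ = q (g y₀) * |(T y₀).det| := by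
  have hinj : Function.Injective g := by
    intro y z hyz
    have := hmono y z
    rw [hyz, sub_self, norm_zero] at this
    have h0 : ‖y - z‖ ≤ 0 := by
      by_contra hc
      push Not at hc
      have := mul_pos ha hc
      linarith
    exact sub_eq_zero.mp (norm_le_zero_iff.mp h0)
  have hgc : Continuous g := continuous_iff_continuousAt.mpr fun y => (hg y).continuousAt
  have himg : g '' univ = univ := by rw [image_univ]; exact hsurj.range_eq
  have hdet : Continuous fun y => |(T y).det| :=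
    (ContinuousLinearMap.continuous_det.comp hT).abs
  -- change of variables
  have cov : ∀ f : E → ℝ, ∫ x, f x = ∫ y, |(T y).det| * f (g y) := by
    intro f
    have := integral_image_eq_integral_abs_det_fderiv_smul volume MeasurableSet.univ
      (fun y _ => (hg y).hasFDerivWithinAt) hinj.injOn f
    rw [himg] at this
    simpa [Measure.restrict_univ] using this
  have covi : ∀ f : E → ℝ, Integrable f → Integrable fun y => |(T y).det| * f (g y) := by
    intro f hf
    have := (integrableOn_image_iff_integrableOn_abs_det_fderiv_smul volume MeasurableSet.univ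
      (fun y _ => (hg y).hasFDerivWithinAt) hinj.injOn f).mp (by rw [himg]; simpa using hf)
    simpa [IntegrableOn, Measure.restrict_univ] using this
  set D : E → ℝ := fun y => p y - q (g y) * |(T y).det| with hD
  have hDc : Continuous D := hp.sub ((hq.comp hgc).mul hdet)
  have hint : ∀ (x₀ : E) (δ : ℝ), 0 < δ →
      Integrable (fun y => bump x₀ δ (g y) * D y) ∧ ∫ y, bump x₀ δ (g y) * D y = 0 := by
    intro x₀ δ hδ
    have i1 := hpint x₀ δ hδ
    have i0 : Integrable fun x => bump x₀ δ x * q x :=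
      ((continuous_bump x₀ δ).mul hq).integrable_of_hasCompactSupport
        ((hasCompactSupport_bump x₀ δ).mul_right)
    have i2 := covi _ i0
    have e : (fun y => bump x₀ δ (g y) * D y) =
        fun y => bump x₀ δ (g y) * p y - |(T y).det| * (bump x₀ δ (g y) * q (g y)) := by
      funext y; simp only [hD]; ring
    rw [e]
    refine ⟨i1.sub i2, ?_⟩
    rw [integral_sub i1 i2, hpush x₀ δ hδ, ← cov (fun x => bump x₀ δ x * q x), sub_self]
  -- positivity argument
  have main : ∀ s : ℝ, (s = 1 ∨ s = -1) → ¬ 0 < s * D y₀ := by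
    intro s _ hpos
    have hc : Continuous fun y => s * D y := continuous_const.mul hDc
    have hnhds : {y | 0 < s * D y} ∈ 𝓝 y₀ := (isOpen_lt continuous_const hc).mem_nhds hpos
    obtain ⟨r, hr, hball⟩ := Metric.mem_nhds_iff.mp hnhds
    have hδ : 0 < a * r := mul_pos ha hr
    obtain ⟨i, e⟩ := hint (g y₀) (a * r) hδ
    have hnn : ∀ y, 0 ≤ s * (bump (g y₀) (a * r) (g y) * D y) := by
      intro y
      rcases le_or_gt (a * r) ‖g y - g y₀‖ with hle | hlt
      · have : bump (g y₀) (a * r) (g y) = 0 := max_eq_left (by linarith)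
        rw [this]; simp
      · have h1 := hmono y y₀
        have h2 : ‖y - y₀‖ < r := by
          have : a * ‖y - y₀‖ < a * r := lt_of_le_of_lt h1 hlt
          exact lt_of_mul_lt_mul_left this ha.le
        have h3 : 0 < s * D y := hball (by rwa [Metric.mem_ball, dist_eq_norm])
        have h4 := bump_nonneg (g y₀) (a * r) (g y)
        have : s * (bump (g y₀) (a * r) (g y) * D y) = bump (g y₀) (a * r) (g y) * (s * D y) := by
          ring
        rw [this]
        exact mul_nonneg h4 h3.le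
    have hz : ∫ y, s * (bump (g y₀) (a * r) (g y) * D y) = 0 := by
      rw [integral_const_mul, e, mul_zero]
    have hcont : Continuous fun y => s * (bump (g y₀) (a * r) (g y) * D y) :=
      continuous_const.mul (((continuous_bump _ _).comp hgc).mul hDc)
    have hae := (integral_eq_zero_iff_of_nonneg hnn (i.const_mul s)).mp hz
    have hall : (fun y => s * (bump (g y₀) (a * r) (g y) * D y)) = fun _ => 0 :=
      Continuous.ae_eq_iff_eq volume hcont continuous_const |>.mp hae
    have h0 := congrFun hall y₀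
    have hb : bump (g y₀) (a * r) (g y₀) = a * r := by
      unfold bump
      rw [sub_self, norm_zero, sub_zero]
      exact max_eq_right hδ.le
    simp only [hb] at h0
    have : 0 < s * (a * r * D y₀) := by
      have : s * (a * r * D y₀) = a * r * (s * D y₀) := by ring
      rw [this]; exact mul_pos hδ hpos
    linarith
  have h1 := main 1 (Or.inl rfl)
  have h2 := main (-1) (Or.inr rfl)
  have h3 : D y₀ = 0 := by
    push Not at h1 h2
    linarith
  simp only [hD] at h3
  linarith

end Vale.Agent.P227.M.LIM
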