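import Vale.Agent.P227.M.LIM.Glue5
import Vale.Agent.P227.M.Bas

/-! # P227/M/LIM/MMofLK: `StmtLK → StmtMM` (normalisation of `V` + `stmtLim`). -/

noncomputable section

open MeasureTheory Filter Topology Set

namespace Vale.Agent.P227.M.LIM

variable {n : ℕ}

lemma pd_add_const (f : E n → ℝ) (a : ℝ) (i : Fin n) : pd i (fun x => f x + a) = pd i f := by
  funext x
  rw [pd, pd, fderiv_add_const]

lemma hess_add_const (f : E n → ℝ) (a : ℝ) (x : E n) : hess (fun x => f x + a) x = hess f x := by
  ext i j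
  rw [hess, hess, pd_add_const]

lemma iteratedFDeriv_add_const (f : E n → ℝ) (a : ℝ) {k : ℕ} (hk : 1 ≤ k)
    (x : E n) : ‖iteratedFDeriv ℝ k (fun x => f x + a) x‖ = ‖iteratedFDeriv ℝ k f x‖ := by
  obtain ⟨m, rfl⟩ : ∃ m, k = m + 1 := ⟨k - 1, by omega⟩
  rw [← norm_iteratedFDeriv_fderiv, ← norm_iteratedFDeriv_fderiv]
  have : fderiv ℝ (fun x => f x + a) = fderiv ℝ f := by
    funext y
    rw [fderiv_add_const]
  rw [this]

lemma Nice.add_const {V : E n → ℝ} {c C : ℝ} (h : Nice V c C) (a : ℝ) :
    Nice (fun x => V x + a) c C where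
  c_pos := h.c_pos
  smooth := h.smooth.add contDiff_const
  lower := fun x v => by rw [hess_add_const]; exact h.lower x v
  upper := fun x v => by rw [hess_add_const]; exact h.upper x v
  bdd := fun k hk => by
    obtain ⟨B, hB⟩ := h.bdd k hk
    refine ⟨B, fun x => ?_⟩
    rw [iteratedFDeriv_add_const V a (by omega)]
    exact hB x
  even := fun x => by rw [h.even]

lemma MM.add_const {ψ V : E n → ℝ} {c C M : ℝ} (h : MM ψ V c C M) (a : ℝ) :
    MM (fun x => ψ x + a) (fun x => V x - a) c C M where
  c_pos := h.c_pos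
  C2 := h.C2.add contDiff_const
  even := fun x => by rw [h.even]
  lower := fun x v => by rw [hess_add_const]; exact h.lower x v
  upper := fun x v => by rw [hess_add_const]; exact h.upper x v
  lip := fun i j x y => by rw [hess_add_const, hess_add_const]; exact h.lip i j x y
  ma := fun x => by
    rw [hess_add_const, pd_add_const_sum h a x]
    have := h.ma x
    linarith
where
  pd_add_const_sum {ψ V : E n → ℝ} {c C M : ℝ} (_h : MM ψ V c C M) (a : ℝ) (x : E n) :
      ∑ i, x i * pd i (fun x => ψ x + a) x = ∑ i, x i * pd i ψ x := by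
    refine Finset.sum_congr rfl fun i _ => ?_
    rw [pd_add_const]

/-- `StmtMM` from the level-`k` block. -/
theorem stmtMM_of_LK (hLK : StmtLK) : StmtMM := by
  intro n V c C hV
  set Z := ∫ x, Real.exp (-V x) with hZ
  have hZ0 : 0 < Z := hV.toReg.Z_pos
  have hV' : Nice (fun x => V x + Real.log Z) c C := Nice.add_const hV _
  have hint : (∫ x, Real.exp (-(V x + Real.log Z))) = 1 := by
    have e : (fun x => Real.exp (-(V x + Real.log Z))) = fun x => Z⁻¹ * Real.exp (-V x) := by
      funext x
      rw [neg_add, Real.exp_add, Real.exp_neg (Real.log Z), Real.exp_log hZ0]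
      ring
    rw [e, integral_const_mul, ← hZ]
    exact inv_mul_cancel₀ hZ0.ne'
  obtain ⟨ψ, M, h⟩ := stmtLim n _ c C hV' hint (hLK n _ c C hV' hint)
  refine ⟨fun x => ψ x + Real.log Z, M, ?_⟩
  have h2 := MM.add_const h (Real.log Z)
  have e : (fun x => (V x + Real.log Z) - Real.log Z) = V := by
    funext x
    ring
  rw [e] at h2
  exact h2

end Vale.Agent.P227.M.LIM
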